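import Vale.Agent.Lib.P091.Ev.EvA

/-! # P091, everywhere divergence, module EvB: the bump

`h x = ∏ n ∈ Icc 1 M, max 0 (min 1 (2 - 2 * ‖PS α n x‖ / t))`: continuous, periodic, `0 ≤ h ≤ 1`,
`h = 1` where all norms are `≤ t / 2`, `h = 0` where some norm is `≥ t`, so
`∫_0^{2π} h ≤ ε` (the measure of the set in `hm`).  `weier` with `δ = ε / 8`; `H = re (PS β' M') + 2 δ`
(add `2 δ` to the coefficient `0`): `h + δ ≤ H ≤ h + 3 δ`, hence `0 < H ≤ 2`.  Its mean
`κ = (β'' 0).re` (`β'' 0` is real, it is `(1/2π) ∫ H`) satisfies `δ ≤ κ ≤ ε / (2π) + 3 δ ≤ ε`.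
Put `β = β'' / κ`. (`∫_0^{2π} e^{ikx} dx = 0` for `k ≠ 0`.) -/

open Finset MeasureTheory

namespace P091

private theorem evB_int_exp (n : ℤ) :
    ∫ x in (0 : ℝ)..(2 * Real.pi), Complex.exp ((n : ℂ) * x * Complex.I) =
      if n = 0 then ((2 * Real.pi : ℝ) : ℂ) else 0 := by
  split_ifs with h
  · subst h
    simp
  · have hn : (n : ℂ) * Complex.I ≠ 0 :=
      mul_ne_zero (Int.cast_ne_zero.mpr h) Complex.I_ne_zero
    have e : ∀ x : ℝ, Complex.exp ((n : ℂ) * x * Complex.I) =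
        Complex.exp (((n : ℂ) * Complex.I) * x) := fun x => by
      congr 1
      ring
    simp_rw [e]
    rw [integral_exp_mul_complex hn]
    have e1 : Complex.exp ((n : ℂ) * Complex.I * ((2 * Real.pi : ℝ) : ℂ)) = 1 := by
      rw [Complex.exp_eq_one_iff]
      refine ⟨n, ?_⟩
      push_cast
      ring
    rw [e1]
    simp

private theorem evB_cont (α : ℤ → ℂ) (n : ℕ) : Continuous (PS α n) := by
  unfold PS
  refine continuous_finsetSum _ fun k _ => ?_
  fun_prop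

private theorem evB_per (α : ℤ → ℂ) (n : ℕ) (x : ℝ) : PS α n (x + 2 * Real.pi) = PS α n x := by
  unfold PS
  refine Finset.sum_congr rfl fun k _ => ?_
  congr 1
  rw [Complex.exp_eq_exp_iff_exists_int]
  refine ⟨k, ?_⟩
  push_cast
  ring

private theorem evB_int (α : ℤ → ℂ) (n : ℕ) :
    ∫ x in (0 : ℝ)..(2 * Real.pi), PS α n x = ((2 * Real.pi : ℝ) : ℂ) * α 0 := by
  unfold PS
  rw [intervalIntegral.integral_finsetSum]
  swap
  · intro j _
    apply Continuous.intervalIntegrable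
    fun_prop
  simp_rw [intervalIntegral.integral_const_mul, evB_int_exp]
  rw [Finset.sum_eq_single (0 : ℤ)]
  · rw [if_pos rfl]
    ring
  · intro b _ hb
    rw [if_neg hb, mul_zero]
  · intro h
    exact absurd (Finset.mem_Icc.2 ⟨by simp, by simp⟩) h

private noncomputable def evB_fac (t y : ℝ) : ℝ := max 0 (min 1 (2 - 2 * y / t))

private theorem evB_fac_nonneg (t y : ℝ) : 0 ≤ evB_fac t y := le_max_left _ _

private theorem evB_fac_le (t y : ℝ) : evB_fac t y ≤ 1 :=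
  max_le zero_le_one (min_le_left _ _)

private theorem evB_fac_one {t y : ℝ} (ht : 0 < t) (h : y ≤ t / 2) : evB_fac t y = 1 := by
  have h1 : 2 * y / t ≤ 1 := by
    rw [div_le_one ht]
    linarith
  unfold evB_fac
  rw [min_eq_left (by linarith), max_eq_right zero_le_one]

private theorem evB_fac_zero {t y : ℝ} (ht : 0 < t) (h : t ≤ y) : evB_fac t y = 0 := by
  have h1 : 2 ≤ 2 * y / t := by
    rw [le_div_iff₀ ht]
    linarith
  unfold evB_fac
  exact max_eq_left ((min_le_right _ _).trans (by linarith))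

private noncomputable def evB_h (α : ℤ → ℂ) (M : ℕ) (t x : ℝ) : ℝ :=
  ∏ n ∈ Icc 1 M, evB_fac t ‖PS α n x‖

private theorem evB_h_cont (α : ℤ → ℂ) (M : ℕ) (t : ℝ) : Continuous (evB_h α M t) := by
  unfold evB_h evB_fac
  refine continuous_finsetProd _ fun n _ => ?_
  have h1 : Continuous (fun x : ℝ => ‖PS α n x‖) := (evB_cont α n).norm
  have h2 : Continuous (fun x : ℝ => 2 - 2 * ‖PS α n x‖ / t) :=
    continuous_const.sub ((continuous_const.mul h1).div_const t)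
  exact continuous_const.max (continuous_const.min h2)

private theorem evB_h_nonneg (α : ℤ → ℂ) (M : ℕ) (t x : ℝ) : 0 ≤ evB_h α M t x :=
  Finset.prod_nonneg fun _ _ => evB_fac_nonneg _ _

private theorem evB_h_le (α : ℤ → ℂ) (M : ℕ) (t x : ℝ) : evB_h α M t x ≤ 1 :=
  Finset.prod_le_one (fun _ _ => evB_fac_nonneg _ _) (fun _ _ => evB_fac_le _ _)

private theorem evB_h_per (α : ℤ → ℂ) (M : ℕ) (t x : ℝ) :
    evB_h α M t (x + 2 * Real.pi) = evB_h α M t x := by
  unfold evB_h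
  refine Finset.prod_congr rfl fun n _ => ?_
  rw [evB_per]

private theorem evB_h_int (α : ℤ → ℂ) (M : ℕ) (t : ℝ) (ht : 0 < t) (ε : ℝ) (hε : 0 < ε)
    (hm : volume {x : ℝ | x ∈ Set.Icc 0 (2 * Real.pi) ∧ ∀ n : ℕ, 1 ≤ n → n ≤ M →
      ‖PS α n x‖ < t} ≤ ENNReal.ofReal ε) :
    ∫ x in (0 : ℝ)..(2 * Real.pi), evB_h α M t x ≤ ε := by
  have hpi : (0 : ℝ) ≤ 2 * Real.pi := by positivity
  obtain ⟨S, hS⟩ : ∃ S : Set ℝ, S = {x : ℝ | x ∈ Set.Icc 0 (2 * Real.pi) ∧
    ∀ n : ℕ, 1 ≤ n → n ≤ M → ‖PS α n x‖ < t} := ⟨_, rfl⟩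
  rw [← hS] at hm
  have hSm : MeasurableSet S := by
    have h1 : S = Set.Icc 0 (2 * Real.pi) ∩
        ⋂ n : ℕ, {x : ℝ | 1 ≤ n → n ≤ M → ‖PS α n x‖ < t} := by
      rw [hS]
      ext x
      simp only [Set.mem_setOf_eq, Set.mem_inter_iff, Set.mem_iInter]
    rw [h1]
    refine measurableSet_Icc.inter (MeasurableSet.iInter fun n => ?_)
    by_cases hn : 1 ≤ n ∧ n ≤ M
    · have h2 : {x : ℝ | 1 ≤ n → n ≤ M → ‖PS α n x‖ < t} = {x : ℝ | ‖PS α n x‖ < t} := by
        ext x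
        simp [hn.1, hn.2]
      rw [h2]
      exact (isOpen_lt (evB_cont α n).norm continuous_const).measurableSet
    · have h2 : {x : ℝ | 1 ≤ n → n ≤ M → ‖PS α n x‖ < t} = Set.univ := by
        ext x
        simp only [Set.mem_setOf_eq, Set.mem_univ, iff_true]
        intro h3 h4
        exact absurd ⟨h3, h4⟩ hn
      rw [h2]
      exact MeasurableSet.univ
  have hSfin : volume S < ⊤ := hm.trans_lt ENNReal.ofReal_lt_top
  rw [intervalIntegral.integral_of_le hpi]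
  have hle : ∀ x ∈ Set.Ioc (0 : ℝ) (2 * Real.pi),
      evB_h α M t x ≤ S.indicator (fun _ => (1 : ℝ)) x := by
    intro x hx
    by_cases hxS : x ∈ S
    · rw [Set.indicator_of_mem hxS]
      exact evB_h_le α M t x
    · rw [Set.indicator_of_notMem hxS]
      apply le_of_eq
      have h3 : ∃ n : ℕ, 1 ≤ n ∧ n ≤ M ∧ t ≤ ‖PS α n x‖ := by
        by_contra hcon
        push Not at hcon
        apply hxS
        rw [hS]
        exact ⟨⟨hx.1.le, hx.2⟩, hcon⟩
      obtain ⟨n, hn1, hn2, hn3⟩ := h3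
      exact Finset.prod_eq_zero (Finset.mem_Icc.2 ⟨hn1, hn2⟩) (evB_fac_zero ht hn3)
  have hint : Integrable (S.indicator (fun _ => (1 : ℝ))) (volume : Measure ℝ) :=
    (integrable_indicator_iff hSm).2 (integrableOn_const hSfin.ne)
  calc ∫ x in Set.Ioc (0 : ℝ) (2 * Real.pi), evB_h α M t x
      ≤ ∫ x in Set.Ioc (0 : ℝ) (2 * Real.pi), S.indicator (fun _ => (1 : ℝ)) x := by
        refine setIntegral_mono_on ?_ hint.integrableOn measurableSet_Ioc hle
        exact ((evB_h_cont α M t).integrableOn_Icc).mono_set Set.Ioc_subset_Icc_self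
    _ ≤ ∫ x, S.indicator (fun _ => (1 : ℝ)) x :=
        setIntegral_le_integral hint (Filter.Eventually.of_forall fun x =>
          Set.indicator_nonneg (fun _ _ => zero_le_one) x)
    _ = volume.real S := by
        rw [integral_indicator_const _ hSm, smul_eq_mul, mul_one]
    _ ≤ ε := by
        unfold Measure.real
        exact ENNReal.toReal_le_of_le_ofReal hε.le hm

theorem bump (α : ℤ → ℂ) (M : ℕ) (t : ℝ) (ht : 0 < t) (ε : ℝ) (hε : 0 < ε) (hε1 : ε ≤ 1)
    (hm : volume {x : ℝ | x ∈ Set.Icc 0 (2 * Real.pi) ∧ ∀ n : ℕ, 1 ≤ n → n ≤ M →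
      ‖PS α n x‖ < t} ≤ ENNReal.ofReal ε) :
    ∃ (κ : ℝ) (M' : ℕ) (β : ℤ → ℂ), 0 < κ ∧ κ ≤ ε ∧ (∀ k : ℤ, (M' : ℤ) < |k| → β k = 0) ∧
      β 0 = 1 ∧
      (∀ x, (PS β M' x).im = 0 ∧ 0 ≤ (PS β M' x).re ∧ κ * (PS β M' x).re ≤ 2) ∧
      ∀ x, (∀ n : ℕ, 1 ≤ n → n ≤ M → ‖PS α n x‖ ≤ t / 2) → 1 ≤ κ * (PS β M' x).re := by
  obtain ⟨M', β₁, hβ₁, hβ₁'⟩ := weier (evB_h α M t) (evB_h_cont α M t) (evB_h_per α M t) (ε / 8)
    (by linarith)
  obtain ⟨β₂, hβ₂⟩ : ∃ β₂ : ℤ → ℂ,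
    β₂ = fun k => β₁ k + if k = 0 then ((2 * (ε / 8) : ℝ) : ℂ) else 0 := ⟨_, rfl⟩
  have hPS : ∀ x, PS β₂ M' x = PS β₁ M' x + ((2 * (ε / 8) : ℝ) : ℂ) := by
    intro x
    unfold PS
    have h1 : ∀ k ∈ Icc (-(M' : ℤ)) M', β₂ k * Complex.exp (k * x * Complex.I) =
        β₁ k * Complex.exp (k * x * Complex.I) +
          (if k = 0 then ((2 * (ε / 8) : ℝ) : ℂ) else 0) * Complex.exp (k * x * Complex.I) := by
      intro k _
      rw [hβ₂]
      ring
    rw [Finset.sum_congr rfl h1, Finset.sum_add_distrib]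
    congr 1
    rw [Finset.sum_eq_single (0 : ℤ)]
    · simp
    · intro b _ hb
      rw [if_neg hb, zero_mul]
    · intro h
      exact absurd (Finset.mem_Icc.2 ⟨by simp, by simp⟩) h
  have him : ∀ x, (PS β₂ M' x).im = 0 := by
    intro x
    rw [hPS, Complex.add_im, Complex.ofReal_im, (hβ₁' x).1, add_zero]
  have hre : ∀ x, (PS β₂ M' x).re = (PS β₁ M' x).re + 2 * (ε / 8) := by
    intro x
    rw [hPS, Complex.add_re, Complex.ofReal_re]
  have hlow : ∀ x, evB_h α M t x + ε / 8 ≤ (PS β₂ M' x).re := by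
    intro x
    have h1 := (abs_le.1 (hβ₁' x).2).1
    rw [hre]
    linarith
  have hup : ∀ x, (PS β₂ M' x).re ≤ evB_h α M t x + 3 * (ε / 8) := by
    intro x
    have h1 := (abs_le.1 (hβ₁' x).2).2
    rw [hre]
    linarith
  have hreal : ∀ x, PS β₂ M' x = (((PS β₂ M' x).re : ℝ) : ℂ) := by
    intro x
    apply Complex.ext
    · rw [Complex.ofReal_re]
    · rw [Complex.ofReal_im, him]
  have hpi : (0 : ℝ) < 2 * Real.pi := by positivity
  have hint : ((∫ x in (0 : ℝ)..(2 * Real.pi), (PS β₂ M' x).re : ℝ) : ℂ) =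
      ((2 * Real.pi : ℝ) : ℂ) * β₂ 0 := by
    rw [← evB_int β₂ M', ← intervalIntegral.integral_ofReal]
    refine intervalIntegral.integral_congr fun x _ => ?_
    exact (hreal x).symm
  obtain ⟨I, hI⟩ : ∃ I : ℝ, I = ∫ x in (0 : ℝ)..(2 * Real.pi), (PS β₂ M' x).re := ⟨_, rfl⟩
  rw [← hI] at hint
  have hβ0 : β₂ 0 = ((I / (2 * Real.pi) : ℝ) : ℂ) := by
    have h1 : ((2 * Real.pi : ℝ) : ℂ) ≠ 0 := by
      rw [Complex.ofReal_ne_zero]
      exact hpi.ne'
    rw [Complex.ofReal_div, hint, mul_div_cancel_left₀ _ h1]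
  have hcre : Continuous (fun x => (PS β₂ M' x).re) :=
    Complex.continuous_re.comp (evB_cont β₂ M')
  have hIlow : ε / 8 * (2 * Real.pi) ≤ I := by
    have h1 : ∫ _x in (0 : ℝ)..(2 * Real.pi), ε / 8 ≤ I := by
      rw [hI]
      refine intervalIntegral.integral_mono_on hpi.le
        (continuous_const.intervalIntegrable _ _) (hcre.intervalIntegrable _ _) fun x _ => ?_
      have h2 := hlow x
      have h3 := evB_h_nonneg α M t x
      linarith
    rw [intervalIntegral.integral_const, smul_eq_mul, sub_zero] at h1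
    linarith
  have hIup : I ≤ ε + 3 * (ε / 8) * (2 * Real.pi) := by
    have h1 : I ≤ ∫ x in (0 : ℝ)..(2 * Real.pi), (evB_h α M t x + 3 * (ε / 8)) := by
      rw [hI]
      refine intervalIntegral.integral_mono_on hpi.le (hcre.intervalIntegrable _ _)
        (((evB_h_cont α M t).add continuous_const).intervalIntegrable _ _) fun x _ => ?_
      exact hup x
    rw [intervalIntegral.integral_add ((evB_h_cont α M t).intervalIntegrable _ _)
      (continuous_const.intervalIntegrable _ _), intervalIntegral.integral_const, smul_eq_mul,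
      sub_zero] at h1
    have h2 := evB_h_int α M t ht ε hε hm
    linarith
  have hpi3 : (3 : ℝ) < Real.pi := Real.pi_gt_three
  have hκ1 : ε / 8 ≤ I / (2 * Real.pi) := by
    rw [le_div_iff₀ hpi]
    exact hIlow
  have hκ0 : 0 < I / (2 * Real.pi) := lt_of_lt_of_le (by linarith) hκ1
  have hκ2 : I / (2 * Real.pi) ≤ ε := by
    rw [div_le_iff₀ hpi]
    nlinarith
  obtain ⟨κ, hκ⟩ : ∃ κ : ℝ, κ = I / (2 * Real.pi) := ⟨_, rfl⟩
  rw [← hκ] at hκ0 hκ1 hκ2 hβ0
  have hκC : (κ : ℂ) ≠ 0 := Complex.ofReal_ne_zero.2 hκ0.ne'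
  have hPSβ : ∀ x, PS (fun k => β₂ k / (κ : ℂ)) M' x = (((PS β₂ M' x).re / κ : ℝ) : ℂ) := by
    intro x
    rw [Complex.ofReal_div, ← hreal x]
    unfold PS
    rw [Finset.sum_div]
    refine Finset.sum_congr rfl fun k _ => ?_
    ring
  refine ⟨κ, M', fun k => β₂ k / (κ : ℂ), hκ0, hκ2, ?_, ?_, ?_, ?_⟩
  · intro k hk
    have hk0 : k ≠ 0 := by
      intro h0
      rw [h0, abs_zero] at hk
      omega
    rw [hβ₂]
    simp only
    rw [hβ₁ k hk, if_neg hk0, add_zero, zero_div]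
  · change β₂ 0 / (κ : ℂ) = 1
    rw [hβ0, div_self hκC]
  · intro x
    have h1 := hlow x
    have h2 := hup x
    have h3 := evB_h_nonneg α M t x
    have h4 := evB_h_le α M t x
    rw [hPSβ, Complex.ofReal_im, Complex.ofReal_re]
    refine ⟨rfl, div_nonneg (by linarith) hκ0.le, ?_⟩
    rw [mul_div_cancel₀ _ hκ0.ne']
    linarith
  · intro x hx
    have h1 : evB_h α M t x = 1 := by
      unfold evB_h
      refine Finset.prod_eq_one fun n hn => ?_
      obtain ⟨hn1, hn2⟩ := Finset.mem_Icc.1 hn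
      exact evB_fac_one ht (hx n hn1 hn2)
    have h2 := hlow x
    rw [hPSβ, Complex.ofReal_re, mul_div_cancel₀ _ hκ0.ne']
    linarith

end P091
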