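import Vale.Agent.Lib.P091.Ev.EDefs

/-! # P091, everywhere divergence, module EvC: the modulated block

`gam a b K α β k = a * α k + b * β (k - K)`, `K = M + M' + 1`, `α`, `β` supported in `|k| ≤ M`, `|k| ≤ M'`:
`PS_gam_low`: for `|k| ≤ n ≤ M` we have `k - K < - M'`, so `β (k - K) = 0`.
`PS_gam_full`: split the sum; the first part stops at `M` (`α = 0` beyond); in the second substitute
`k = j + K` (`Finset.sum_bij`/`Finset.map` with `addRightEmbedding`), `j` runs over
`[-K - M' - K, M']` and `β j = 0` for `j < -M'`. -/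

open Finset

namespace P091

theorem gam_supp (a b : ℝ) (M M' : ℕ) (α β : ℤ → ℂ) (hα : ∀ k : ℤ, (M : ℤ) < |k| → α k = 0)
    (hβ : ∀ k : ℤ, (M' : ℤ) < |k| → β k = 0) (k : ℤ)
    (hk : ((M + M' + 1 + M' : ℕ) : ℤ) < |k|) : gam a b (M + M' + 1) α β k = 0 := by
  have h1 : α k = 0 := by
    apply hα
    push_cast at hk
    omega
  have h2 : β (k - ((M + M' + 1 : ℕ) : ℤ)) = 0 := by
    apply hβ
    push_cast at hk ⊢
    rcases abs_cases k with h | h <;>
      rcases abs_cases (k - ((M : ℤ) + M' + 1)) with h' | h' <;> omega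
  unfold gam
  rw [h1, h2, mul_zero, mul_zero, add_zero]

theorem PS_gam_low (a b : ℝ) (M M' : ℕ) (α β : ℤ → ℂ) (hβ : ∀ k : ℤ, (M' : ℤ) < |k| → β k = 0)
    (n : ℕ) (hn : n ≤ M) (x : ℝ) : PS (gam a b (M + M' + 1) α β) n x = a * PS α n x := by
  unfold PS
  rw [Finset.mul_sum]
  refine Finset.sum_congr rfl fun k hk => ?_
  rw [Finset.mem_Icc] at hk
  have h2 : β (k - ((M + M' + 1 : ℕ) : ℤ)) = 0 := by
    apply hβ
    push_cast
    rcases abs_cases (k - ((M : ℤ) + M' + 1)) with h' | h' <;> omega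
  unfold gam
  rw [h2, mul_zero, add_zero, mul_assoc]

theorem PS_gam_full (a b : ℝ) (M M' : ℕ) (α β : ℤ → ℂ) (hα : ∀ k : ℤ, (M : ℤ) < |k| → α k = 0)
    (hβ : ∀ k : ℤ, (M' : ℤ) < |k| → β k = 0) (x : ℝ) :
    PS (gam a b (M + M' + 1) α β) (M + M' + 1 + M') x =
      a * PS α M x + b * (Complex.exp ((M + M' + 1 : ℕ) * x * Complex.I) * PS β M' x) := by
  have h0 : PS (gam a b (M + M' + 1) α β) (M + M' + 1 + M') x =
      a * ∑ k ∈ Icc (-((M + M' + 1 + M' : ℕ) : ℤ)) ((M + M' + 1 + M' : ℕ) : ℤ),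
          α k * Complex.exp (k * x * Complex.I) +
      b * ∑ k ∈ Icc (-((M + M' + 1 + M' : ℕ) : ℤ)) ((M + M' + 1 + M' : ℕ) : ℤ),
          β (k - ((M + M' + 1 : ℕ) : ℤ)) * Complex.exp (k * x * Complex.I) := by
    unfold PS
    rw [Finset.mul_sum, Finset.mul_sum, ← Finset.sum_add_distrib]
    refine Finset.sum_congr rfl fun k _ => ?_
    unfold gam
    ring
  have h1 : ∑ k ∈ Icc (-((M + M' + 1 + M' : ℕ) : ℤ)) ((M + M' + 1 + M' : ℕ) : ℤ),
      α k * Complex.exp (k * x * Complex.I) = PS α M x := by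
    unfold PS
    symm
    refine Finset.sum_subset ?_ ?_
    · intro k hk
      rw [Finset.mem_Icc] at hk ⊢
      push_cast
      omega
    · intro k _ hk
      rw [hα k, zero_mul]
      rw [Finset.mem_Icc] at hk
      rcases abs_cases k with h | h <;> omega
  have h2 : ∑ k ∈ Icc (-((M + M' + 1 + M' : ℕ) : ℤ)) ((M + M' + 1 + M' : ℕ) : ℤ),
      β (k - ((M + M' + 1 : ℕ) : ℤ)) * Complex.exp (k * x * Complex.I) =
      Complex.exp ((M + M' + 1 : ℕ) * x * Complex.I) * PS β M' x := by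
    have h3 : ∑ k ∈ Icc (((M + M' + 1 : ℕ) : ℤ) - M') (((M + M' + 1 : ℕ) : ℤ) + M'),
        β (k - ((M + M' + 1 : ℕ) : ℤ)) * Complex.exp (k * x * Complex.I) =
        ∑ k ∈ Icc (-((M + M' + 1 + M' : ℕ) : ℤ)) ((M + M' + 1 + M' : ℕ) : ℤ),
        β (k - ((M + M' + 1 : ℕ) : ℤ)) * Complex.exp (k * x * Complex.I) := by
      refine Finset.sum_subset ?_ ?_
      · intro k hk
        rw [Finset.mem_Icc] at hk ⊢
        push_cast at hk ⊢
        omega
      · intro k hk1 hk
        rw [hβ, zero_mul]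
        rw [Finset.mem_Icc] at hk hk1
        push_cast at hk hk1 ⊢
        rcases abs_cases (k - ((M : ℤ) + M' + 1)) with h | h <;> omega
    rw [← h3]
    unfold PS
    rw [Finset.mul_sum]
    refine Finset.sum_nbij' (fun k => k - ((M + M' + 1 : ℕ) : ℤ))
      (fun k => k + ((M + M' + 1 : ℕ) : ℤ)) ?_ ?_ ?_ ?_ ?_
    · intro k hk
      rw [Finset.mem_Icc] at hk ⊢
      omega
    · intro k hk
      rw [Finset.mem_Icc] at hk ⊢
      omega
    · intro k _
      exact sub_add_cancel _ _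
    · intro k _
      exact add_sub_cancel_right _ _
    · intro k _
      have h4 : Complex.exp (k * x * Complex.I) = Complex.exp ((M + M' + 1 : ℕ) * x * Complex.I) *
          Complex.exp (((k - ((M + M' + 1 : ℕ) : ℤ) : ℤ) : ℂ) * x * Complex.I) := by
        rw [← Complex.exp_add]
        congr 1
        push_cast
        ring
      rw [h4]
      ring
  rw [h0, h1, h2]

end P091
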