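import Vale.Agent.Lib.P091.Ev.EDefs
import Vale.Agent.Lib.P091.GlueA

/-! # P091, everywhere divergence, module EvD: partial sums of a dilated trigonometric polynomial

As `S_FF` (find it with grep in Vale/Agent/Lib/P091, probably module GlueA or GlueA2), but for complex functions:
the `k`-th coefficient of `x ↦ PS γ M (K x)` is `γ (k / K)` if `K ∣ k` (and `|k / K| ≤ M`), else `0`. -/

open Finset

namespace P091

private theorem evD_fcC (γ : ℤ → ℂ) (M K : ℕ) (hK : 1 ≤ K) (hγ : ∀ k : ℤ, (M : ℤ) < |k| → γ k = 0)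
    (k : ℤ) : fcC (fun x => PS γ M (K * x)) k = if (K : ℤ) ∣ k then γ (k / K) else 0 := by
  have hpi : ((2 * Real.pi : ℝ) : ℂ) ≠ 0 := by
    rw [Complex.ofReal_ne_zero]
    positivity
  have h1 : ∀ x : ℝ, PS γ M (K * x) * Complex.exp (-(k * x * Complex.I)) =
      ∑ j ∈ Icc (-(M : ℤ)) M, γ j * Complex.exp (((j * K - k : ℤ) : ℂ) * x * Complex.I) := by
    intro x
    rw [PS, Finset.sum_mul]
    refine Finset.sum_congr rfl fun j _ => ?_
    rw [mul_assoc, ← Complex.exp_add]
    congr 2
    push_cast
    ring
  unfold fcC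
  simp_rw [h1]
  rw [intervalIntegral.integral_finsetSum]
  swap
  · intro j _
    apply Continuous.intervalIntegrable
    fun_prop
  simp_rw [intervalIntegral.integral_const_mul, glueA_int_exp]
  have hK0 : (K : ℤ) ≠ 0 := by
    have : (0 : ℤ) < K := by exact_mod_cast hK
    exact this.ne'
  split_ifs with hd
  · obtain ⟨t, rfl⟩ := hd
    rw [Int.mul_ediv_cancel_left _ hK0]
    by_cases ht : t ∈ Icc (-(M : ℤ)) M
    · rw [Finset.sum_eq_single_of_mem t ht]
      · rw [if_pos (by ring)]
        push_cast
        field_simp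
      · intro j _ hj
        rw [if_neg, mul_zero]
        intro h0
        apply hj
        have : (j - t) * K = 0 := by linarith
        rcases mul_eq_zero.mp this with h | h
        · linarith
        · exact absurd h hK0
    · have hz : γ t = 0 := by
        apply hγ
        by_contra hc
        apply ht
        rw [Finset.mem_Icc]
        exact abs_le.mp (not_lt.mp hc)
      rw [hz, Finset.sum_eq_zero, mul_zero]
      intro j hj
      rw [if_neg, mul_zero]
      intro h0
      have : (j - t) * K = 0 := by linarith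
      rcases mul_eq_zero.mp this with h | h
      · have : j = t := by linarith
        exact ht (this ▸ hj)
      · exact absurd h hK0
  · rw [Finset.sum_eq_zero, mul_zero]
    intro j _
    rw [if_neg, mul_zero]
    intro h0
    exact hd ⟨j, by linarith⟩

theorem SC_dil (γ : ℤ → ℂ) (M K : ℕ) (hK : 1 ≤ K) (hγ : ∀ k : ℤ, (M : ℤ) < |k| → γ k = 0)
    (N : ℕ) (x : ℝ) : SC (fun x => PS γ M (K * x)) N x = PS γ (N / K) (K * x) := by
  have hK0 : (0 : ℤ) < K := by exact_mod_cast hK
  unfold SC
  simp only [evD_fcC γ M K hK hγ]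
  unfold PS
  symm
  refine Finset.sum_of_injOn (fun k : ℤ => (K : ℤ) * k) ?_ ?_ ?_ ?_
  · intro a _ b _ hab
    exact mul_left_cancel₀ hK0.ne' hab
  · intro k hk
    simp only [Finset.coe_Icc, Set.mem_Icc] at hk ⊢
    obtain ⟨h1, h2⟩ := hk
    have h3 : ((N / K : ℕ) : ℤ) * K ≤ N := by
      exact_mod_cast Nat.div_mul_le_self N K
    constructor
    · nlinarith
    · nlinarith
  · intro k hk hk'
    by_cases hd : (K : ℤ) ∣ k
    · exfalso
      obtain ⟨c, rfl⟩ := hd
      apply hk'
      refine ⟨c, ?_, rfl⟩
      simp only [Finset.coe_Icc, Set.mem_Icc, Finset.mem_Icc] at hk ⊢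
      obtain ⟨h1, h2⟩ := hk
      push_cast
      constructor
      · rw [neg_le]
        apply Int.le_ediv_of_mul_le hK0
        linarith
      · apply Int.le_ediv_of_mul_le hK0
        linarith
    · simp [hd]
  · intro k _
    rw [if_pos (dvd_mul_right _ _), Int.mul_ediv_cancel_left _ hK0.ne']
    push_cast
    congr 2
    ring

end P091
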