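import Vale.Agent.Lib.P091.Ev.EDefs
import Vale.Agent.Lib.P091.GlueB

/-! # P091, everywhere divergence, module EvE: sums of complex functions

`sum_facts` (GlueB) applied to `fun l x => ‖F l x‖` gives: `∑' ‖F l x‖` is measurable and integrable and the
series converges for almost every `x`.  Measurability of `∑' F l x`: the set `A` of `x` with
`Summable (fun l => F l x)` is measurable (`∑' ENNReal.ofReal ‖F l x‖ < ⊤`), and `∑' F l x` is the limit of
`A.indicator (∑ l ∈ range n, F l)` (`measurable_of_tendsto_metrizable`).  Integrability by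
`‖∑' F l x‖ ≤ ∑' ‖F l x‖` (a.e.).  The coefficients:
`MeasureTheory.hasSum_integral_of_summable_integral_norm`. -/

open Finset MeasureTheory

namespace P091

theorem SC_tsum (F : ℕ → ℝ → ℂ) (hF : ∀ l, Continuous (F l))
    (hs : Summable fun l => ∫ x in (0 : ℝ)..(2 * Real.pi), ‖F l x‖) :
    Measurable (fun x => ∑' l, F l x) ∧
    IntervalIntegrable (fun x => ∑' l, F l x) volume 0 (2 * Real.pi) ∧
    (∀ N x, HasSum (fun l => SC (F l) N x) (SC (fun x => ∑' l, F l x) N x)) := by
  have h2pi : (0 : ℝ) ≤ 2 * Real.pi := by positivity
  have hmeas : Measurable (fun x => ∑' l, F l x) :=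
    Measurable.tsum fun l => (hF l).measurable
  obtain ⟨_, hint, _, _⟩ := sum_facts (fun l x => ‖F l x‖) (fun l => (hF l).norm)
    (fun l x => norm_nonneg _) hs
  refine ⟨hmeas, ?_, ?_⟩
  · refine hint.mono_fun hmeas.aestronglyMeasurable ?_
    refine Filter.Eventually.of_forall fun x => ?_
    have h0 : 0 ≤ ∑' l, ‖F l x‖ := tsum_nonneg fun l => norm_nonneg _
    simp only [Real.norm_of_nonneg h0]
    by_cases h : Summable fun l => ‖F l x‖
    · exact norm_tsum_le_tsum_norm h
    · have h' : ¬ Summable fun l => F l x := fun hh => h hh.norm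
      rw [tsum_eq_zero_of_not_summable h', norm_zero]
      exact h0
  · intro N x
    have hcoef : ∀ k : ℤ, HasSum (fun l => fcC (F l) k) (fcC (fun x => ∑' l, F l x) k) := by
      intro k
      unfold fcC
      refine HasSum.mul_left _ ?_
      have hcont : ∀ l, Continuous (fun x : ℝ => F l x * Complex.exp (-(k * x * Complex.I))) := by
        intro l
        have := hF l
        fun_prop
      have hnorm : ∀ (l : ℕ) (x : ℝ), ‖F l x * Complex.exp (-(k * x * Complex.I))‖ = ‖F l x‖ := by
        intro l x
        have e : -((k : ℂ) * x * Complex.I) = ((-(k * x) : ℝ) : ℂ) * Complex.I := by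
          push_cast; ring
        rw [norm_mul, e, Complex.norm_exp_ofReal_mul_I, mul_one]
      have h1 := hasSum_integral_of_summable_integral_norm
        (μ := volume.restrict (Set.Ioc 0 (2 * Real.pi)))
        (F := fun (l : ℕ) (x : ℝ) => F l x * Complex.exp (-(k * x * Complex.I)))
        (fun l => ((hcont l).continuousOn.integrableOn_Icc).mono_set Set.Ioc_subset_Icc_self)
        (by
          simp only [hnorm]
          refine hs.congr fun l => ?_
          rw [intervalIntegral.integral_of_le h2pi])
      simp only [intervalIntegral.integral_of_le h2pi]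
      simp only [tsum_mul_right] at h1
      exact h1
    unfold SC
    exact hasSum_sum fun k _ => (hcoef k).mul_right _

end P091
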