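import Vale.Agent.Lib.P091.Final
import Vale.Agent.Lib.P091.Ev.EvB
import Vale.Agent.Lib.P091.Ev.EvC
import Vale.Agent.Lib.P091.Ev.EvD
import Vale.Agent.Lib.P091.Ev.EvE

/-! # P091, everywhere divergence: assembly -/

open Finset MeasureTheory

namespace P091

theorem PS_add_nat (α : ℤ → ℂ) (M K : ℕ) (x : ℝ) :
    PS α M (K * (x + 2 * Real.pi)) = PS α M (K * x) := by
  unfold PS
  refine sum_congr rfl fun k _ => ?_
  congr 1
  rw [Complex.exp_eq_exp_iff_exists_int]
  exact ⟨k * K, by push_cast; ring⟩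

/-- index of the partial sum which cuts the `l`-th block at `n` -/
def idx (N : ℕ → ℕ) (l n : ℕ) : ℕ := if n = 0 then KK N l - 1 else n * KK N l

theorem idx_eq (N : ℕ → ℕ) (l n : ℕ) : idx N l n / KK N l = n := by
  have h := KK_pos N l
  unfold idx
  split_ifs with h0
  · rw [h0]; exact Nat.div_eq_of_lt (by omega)
  · exact Nat.mul_div_cancel _ h

theorem idx_lt (N : ℕ → ℕ) (l n : ℕ) {i : ℕ} (hi : i < l) : N i ≤ idx N l n / KK N i := by
  have h := KK_pos N i
  have h1 := KK_lt N hi
  rw [Nat.le_div_iff_mul_le h]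
  have h2 : N i * KK N i + 1 ≤ KK N l := by nlinarith
  unfold idx
  split_ifs with h0
  · omega
  · have : KK N l ≤ n * KK N l := Nat.le_mul_of_pos_left _ (Nat.pos_of_ne_zero h0)
    omega

theorem idx_gt (N : ℕ → ℕ) (l n : ℕ) (hn : n ≤ N l) {i : ℕ} (hi : l < i) :
    idx N l n / KK N i = 0 := by
  have h := KK_pos N l
  have h1 := KK_lt N hi
  apply Nat.div_eq_of_lt
  have h2 : N l * KK N l + 1 ≤ KK N i := by nlinarith
  have h3 : KK N l ≤ KK N i := by nlinarith
  unfold idx
  split_ifs with h0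
  · omega
  · have : n * KK N l ≤ N l * KK N l := Nat.mul_le_mul_right _ hn
    omega

/-- differences of partial sums see only one block -/
theorem diff_block (γ : ℕ → ℤ → ℂ) (N : ℕ → ℕ) (hγ : ∀ l, ∀ k : ℤ, (N l : ℤ) < |k| → γ l k = 0)
    (f : ℝ → ℂ) (hS : ∀ n x, HasSum (fun l => SC (fun x => PS (γ l) (N l) (KK N l * x)) n x)
      (SC f n x)) (l n n' : ℕ) (hn : n ≤ N l) (hn' : n' ≤ N l) (x : ℝ) :
    SC f (idx N l n) x - SC f (idx N l n') x =
      PS (γ l) n (KK N l * x) - PS (γ l) n' (KK N l * x) := by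
  have h1 := (hS (idx N l n) x).sub (hS (idx N l n') x)
  have h2 : (fun i => SC (fun x => PS (γ i) (N i) (KK N i * x)) (idx N l n) x -
      SC (fun x => PS (γ i) (N i) (KK N i * x)) (idx N l n') x) =
      fun i => if i = l then PS (γ l) n (KK N l * x) - PS (γ l) n' (KK N l * x) else 0 := by
    funext i
    rw [SC_dil (γ i) (N i) (KK N i) (KK_pos N i) (hγ i),
      SC_dil (γ i) (N i) (KK N i) (KK_pos N i) (hγ i)]
    rcases lt_trichotomy i l with h | h | h
    · rw [if_neg h.ne, PS_of_le (γ i) (N i) _ (hγ i) (idx_lt N l n h),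
        PS_of_le (γ i) (N i) _ (hγ i) (idx_lt N l n' h), sub_self]
    · subst h
      rw [if_pos rfl, idx_eq, idx_eq]
    · rw [if_neg h.ne', idx_gt N l n hn h, idx_gt N l n' hn' h, sub_self]
  rw [h2] at h1
  exact h1.unique (hasSum_ite_eq l _)

theorem main2 (φ : ℝ → ℝ) (hφ : MonotoneOn φ (Set.Ici 0)) (hφ0 : ∀ u, 0 ≤ u → 0 ≤ φ u)
    (ho : φ =o[Filter.atTop] fun u => u * Real.sqrt (Real.log u)) :
    ∃ f : ℝ → ℂ, Measurable f ∧ (∀ x, f (x + 2 * Real.pi) = f x) ∧
      IntervalIntegrable f volume 0 (2 * Real.pi) ∧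
      IntervalIntegrable (fun x => φ ‖f x‖) volume 0 (2 * Real.pi) ∧
      ∀ x, ¬ BddAbove (Set.range fun N : ℕ => ‖SC f N x‖) := by
  have hpi := Real.pi_pos
  -- the growth function
  have hgrow := phi_growth φ hφ hφ0 ho
  choose A0 hA0 hA1 using hgrow
  set A : ℝ → ℝ := fun η => if h : 0 < η then A0 η h else 0 with hAdef
  have hA : ∀ η, 0 < η → 0 ≤ A η := fun η h => by rw [hAdef]; simp only [dif_pos h]; exact hA0 η h
  have hAg : ∀ η, 0 < η → ∀ u, 0 ≤ u → φ u ≤ A η + η * u * Real.sqrt (Real.log (2 + u)) :=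
    fun η h => by rw [hAdef]; simp only [dif_pos h]; exact hA1 η h
  -- the weights of the bumps
  set b : ℕ → ℝ := fun l => 2 * ((l : ℝ) + 1) with hb
  have hb0 : ∀ l, 0 < b l := fun l => by simp only [hb]; positivity
  set W : ℕ → ℝ := fun l => A 1 + 1 * Real.sqrt (Real.log (2 + 2 ^ (l + 1) * (b l * 2))) with hW
  have hW0 : ∀ l, 0 ≤ W l := fun l => by
    have := hA 1 one_pos
    simp only [hW]; positivity
  set ε : ℕ → ℝ := fun l => min 1 ((1 / 2 : ℝ) ^ l / (2 ^ (l + 1) * b l * (W l + 1))) with hε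
  have hden : ∀ l, 0 < 2 ^ (l + 1) * b l * (W l + 1) := fun l => by
    have h1 := hb0 l
    have h2 := hW0 l
    positivity
  have hε0 : ∀ l, 0 < ε l := fun l => lt_min one_pos (div_pos (by positivity) (hden l))
  have hε1 : ∀ l, ε l ≤ 1 := fun l => min_le_left _ _
  have hε2 : ∀ l, 2 ^ (l + 1) * b l * (W l + 1) * ε l ≤ (1 / 2 : ℝ) ^ l := fun l => by
    have h1 : ε l ≤ (1 / 2 : ℝ) ^ l / (2 ^ (l + 1) * b l * (W l + 1)) := min_le_right _ _
    rw [le_div_iff₀ (hden l)] at h1
    linarith
  -- the blocks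
  have hblock := fun l : ℕ => block (ε l) (hε0 l)
  choose c hc C m0 hbl using hblock
  obtain ⟨a, η, m, ha, hη, ha4, hm0, ham, hpar⟩ :=
    exists_params (fun l => c l / 4) (fun l => by have := hc l; positivity) C m0 A hA
  choose M α hα hα0 hreal hmeas using fun l => hbl l (m l) (hm0 l)
  have hm : ∀ l, 0 < (m l : ℝ) := fun l => by
    have h1 := ham l
    have h2 := ha l
    have h3 := hc l
    rcases Nat.eq_zero_or_pos (m l) with h0 | h0
    · rw [h0] at h1
      simp only [Nat.cast_zero, mul_zero] at h1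
      have : (0 : ℝ) ≤ l := Nat.cast_nonneg l
      linarith
    · exact_mod_cast h0
  choose κ M' β hκ0 hκε hβ hβ0 hβr hβ1 using fun l => bump (α l) (M l) (c l * m l)
    (mul_pos (hc l) (hm l)) (ε l) (hε0 l) (hε1 l) (hmeas l)
  have hr : ∀ l x, (PS (α l) (M l) x).im = 0 := fun l x => (hreal l x).1
  have h0 : ∀ l x, 0 ≤ (PS (α l) (M l) x).re := fun l x => (hreal l x).2.1
  have hB : ∀ l x, (PS (α l) (M l) x).re ≤ 2 ^ (C l * m l ^ 2) := fun l x => (hreal l x).2.2
  have hr' : ∀ l x, (PS (β l) (M' l) x).im = 0 := fun l x => (hβr l x).1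
  have h0' : ∀ l x, 0 ≤ (PS (β l) (M' l) x).re := fun l x => (hβr l x).2.1
  set N : ℕ → ℕ := fun l => M l + M' l + 1 + M' l with hN
  set γ : ℕ → ℤ → ℂ := fun l => gam (a l / 2) (b l * κ l / 2) (M l + M' l + 1) (α l) (β l) with hγd
  have hγ : ∀ l, ∀ k : ℤ, (N l : ℤ) < |k| → γ l k = 0 := fun l k hk =>
    gam_supp _ _ (M l) (M' l) (α l) (β l) (hα l) (hβ l) k hk
  set F : ℕ → ℝ → ℂ := fun l x => PS (γ l) (N l) (KK N l * x) with hF
  set FA : ℕ → ℝ → ℝ := fun l x => a l * FF (α l) (M l) (KK N l) x with hFA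
  set FB : ℕ → ℝ → ℝ := fun l x => b l * κ l * FF (β l) (M' l) (KK N l) x with hFB
  have hFA0 : ∀ l x, 0 ≤ FA l x := fun l x => mul_nonneg (ha l).le (h0 l _)
  have hFB0 : ∀ l x, 0 ≤ FB l x := fun l x =>
    mul_nonneg (mul_nonneg (hb0 l).le (hκ0 l).le) (h0' l _)
  have hFAc : ∀ l, Continuous (FA l) := fun l => continuous_const.mul (continuous_FF _ _ _)
  have hFBc : ∀ l, Continuous (FB l) := fun l => continuous_const.mul (continuous_FF _ _ _)
  have hFc : ∀ l, Continuous (F l) := fun l =>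
    (continuous_PS _ _).comp (continuous_const.mul continuous_id)
  have hnr : ∀ z : ℂ, z.im = 0 → 0 ≤ z.re → ‖z‖ = z.re := fun z h1 h2 => by
    have h3 : z = (z.re : ℂ) := Complex.ext rfl (by simp [h1])
    rw [h3, Complex.norm_real, Real.norm_of_nonneg (by simpa using h2)]
    simp
  have hFle : ∀ l x, ‖F l x‖ ≤ (FA l x + FB l x) / 2 := fun l x => by
    have h1 : F l x = _ := PS_gam_full (a l / 2) (b l * κ l / 2) (M l) (M' l) (α l) (β l) (hα l)
      (hβ l) (KK N l * x)
    rw [h1]
    refine (norm_add_le _ _).trans ?_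
    rw [norm_mul, norm_mul, norm_mul, Complex.norm_real, Complex.norm_real]
    have h2 : ‖Complex.exp (((M l + M' l + 1 : ℕ) : ℂ) * ((KK N l * x : ℝ) : ℂ) * Complex.I)‖ = 1 := by
      have := Complex.norm_exp_ofReal_mul_I (((M l + M' l + 1 : ℕ) : ℝ) * (KK N l * x))
      rw [← this]
      congr 2
      push_cast; ring
    rw [h2, one_mul, hnr _ (hr l _) (h0 l _), hnr _ (hr' l _) (h0' l _),
      Real.norm_of_nonneg (by have := ha l; positivity),
      Real.norm_of_nonneg (by have := hb0 l; have := hκ0 l; positivity)]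
    have h3 : FA l x = a l * (PS (α l) (M l) (KK N l * x)).re := rfl
    have h4 : FB l x = b l * κ l * (PS (β l) (M' l) (KK N l * x)).re := rfl
    rw [h3, h4]
    linarith
  have hintA : ∀ l, ∫ x in (0 : ℝ)..(2 * Real.pi), FA l x = a l * (2 * Real.pi) := fun l => by
    simp only [hFA]
    rw [intervalIntegral.integral_const_mul,
      integral_FF (α l) (M l) (KK N l) (KK_pos N l) (hα l) (hr l) (hα0 l)]
  have hintB : ∀ l, ∫ x in (0 : ℝ)..(2 * Real.pi), FB l x = b l * κ l * (2 * Real.pi) := fun l => by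
    simp only [hFB]
    rw [intervalIntegral.integral_const_mul,
      integral_FF (β l) (M' l) (KK N l) (KK_pos N l) (hβ l) (hr' l) (hβ0 l)]
  have hsa : Summable a := by
    refine Summable.of_nonneg_of_le (fun l => (ha l).le) ha4 ?_
    exact (summable_nat_add_iff 1).2 (summable_geometric_of_lt_one (by norm_num) (by norm_num))
  have hbκ : ∀ l, 2 ^ (l + 1) * (b l * κ l) * W l ≤ (1 / 2 : ℝ) ^ l := fun l => by
    have h1 := hε2 l
    have h2 : b l * κ l ≤ b l * ε l := mul_le_mul_of_nonneg_left (hκε l) (hb0 l).le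
    have h3 : 0 ≤ 2 ^ (l + 1) * (b l * ε l) := by
      have := hb0 l
      have := hε0 l
      positivity
    calc 2 ^ (l + 1) * (b l * κ l) * W l ≤ 2 ^ (l + 1) * (b l * ε l) * W l := by
          refine mul_le_mul_of_nonneg_right ?_ (hW0 l)
          exact mul_le_mul_of_nonneg_left h2 (by positivity)
      _ ≤ 2 ^ (l + 1) * b l * (W l + 1) * ε l := by nlinarith
      _ ≤ _ := h1
  have hbκ1 : ∀ l, b l * κ l ≤ (1 / 2 : ℝ) ^ l := fun l => by
    have h1 := hε2 l
    have h2 : b l * κ l ≤ b l * ε l := mul_le_mul_of_nonneg_left (hκε l) (hb0 l).le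
    have h3 : 0 ≤ b l * ε l := by
      have := hb0 l
      have := hε0 l
      positivity
    have h4 : (1 : ℝ) ≤ 2 ^ (l + 1) := one_le_pow₀ (by norm_num)
    have h5 := hW0 l
    have h6 : b l * ε l ≤ 2 ^ (l + 1) * b l * (W l + 1) * ε l := by
      have h7 : 1 ≤ 2 ^ (l + 1) * (W l + 1) := by nlinarith
      calc b l * ε l = b l * ε l * 1 := (mul_one _).symm
        _ ≤ b l * ε l * (2 ^ (l + 1) * (W l + 1)) := mul_le_mul_of_nonneg_left h7 h3
        _ = _ := by ring
    linarith
  have hsb : Summable fun l => b l * κ l := by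
    refine Summable.of_nonneg_of_le (fun l => (mul_pos (hb0 l) (hκ0 l)).le) hbκ1 ?_
    exact summable_geometric_of_lt_one (by norm_num) (by norm_num)
  have hs : Summable fun l => ∫ x in (0 : ℝ)..(2 * Real.pi), ‖F l x‖ := by
    refine Summable.of_nonneg_of_le (fun l => ?_) (fun l => ?_)
      ((hsa.add hsb).mul_right (2 * Real.pi / 2))
    · exact intervalIntegral.integral_nonneg (by positivity) fun x _ => norm_nonneg _
    · have h1 : ∫ x in (0 : ℝ)..(2 * Real.pi), ‖F l x‖ ≤
          ∫ x in (0 : ℝ)..(2 * Real.pi), (FA l x + FB l x) / 2 := by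
        refine intervalIntegral.integral_mono_on (by positivity) ?_ ?_ fun x _ => hFle l x
        · exact (hFc l).norm.intervalIntegrable _ _
        · exact (((hFAc l).add (hFBc l)).div_const 2).intervalIntegrable _ _
      refine h1.trans (le_of_eq ?_)
      rw [intervalIntegral.integral_div, intervalIntegral.integral_add
        ((hFAc l).intervalIntegrable _ _) ((hFBc l).intervalIntegrable _ _), hintA, hintB]
      ring
  obtain ⟨hmeasf, hintf, hS⟩ := SC_tsum F hFc hs
  have hfin : volume (Set.Ioc 0 (2 * Real.pi)) ≠ ⊤ := measure_Ioc_lt_top.ne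
  refine ⟨fun x => ∑' l, F l x, hmeasf, fun x => ?_, hintf, ?_, fun x => ?_⟩
  · refine tsum_congr fun l => ?_
    simp only [hF]
    exact PS_add_nat _ _ _ _
  · -- the Orlicz condition
    have hφm : Measurable fun x => φ ‖∑' l, F l x‖ := by
      have h1 : Monotone fun u => φ (max u 0) := fun u v huv =>
        hφ (Set.mem_Ici.2 (le_max_right _ _)) (Set.mem_Ici.2 (le_max_right _ _))
          (max_le_max_right _ huv)
      have h2 : (fun x => φ ‖∑' l, F l x‖) =
          (fun u => φ (max u 0)) ∘ fun x => ‖∑' l, F l x‖ := by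
        funext x
        simp only [Function.comp]
        rw [max_eq_left (norm_nonneg _)]
      rw [h2]
      exact h1.measurable.comp hmeasf.norm
    rw [intervalIntegrable_iff_integrableOn_Ioc_of_le (by positivity)]
    refine ⟨hφm.aestronglyMeasurable, ?_⟩
    rw [hasFiniteIntegral_iff_ofReal
      (Filter.Eventually.of_forall fun x => hφ0 _ (norm_nonneg _))]
    have hmi : ∀ (G : ℝ → ℝ), Continuous G → ∀ l : ℕ, Measurable fun x =>
        (if 1 < 2 ^ (l + 1) * max (G x) 0 then
          ENNReal.ofReal (φ (2 ^ (l + 1) * max (G x) 0)) else 0) := by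
      intro G hG l
      have h1 : Monotone fun u => φ (max u 0) := fun u v huv =>
        hφ (Set.mem_Ici.2 (le_max_right _ _)) (Set.mem_Ici.2 (le_max_right _ _))
          (max_le_max_right _ huv)
      have hGm : Measurable fun x => 2 ^ (l + 1) * max (G x) 0 :=
        (continuous_const.mul (hG.max continuous_const)).measurable
      have h2 : (fun x => φ (2 ^ (l + 1) * max (G x) 0)) =
          (fun u => φ (max u 0)) ∘ fun x => 2 ^ (l + 1) * max (G x) 0 := by
        funext x
        simp only [Function.comp]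
        rw [max_eq_left (mul_nonneg (by positivity) (le_max_right _ _))]
      have h3 : Measurable fun x => φ (2 ^ (l + 1) * max (G x) 0) := by
        rw [h2]
        exact h1.measurable.comp hGm
      refine Measurable.ite ?_ h3.ennreal_ofReal measurable_const
      exact measurableSet_lt measurable_const hGm
    have hmi' : ∀ (G : ℝ → ℝ), Continuous G → (∀ x, 0 ≤ G x) → ∀ l : ℕ, Measurable fun x =>
        (if 1 < 2 ^ (l + 1) * G x then ENNReal.ofReal (φ (2 ^ (l + 1) * G x)) else 0) := by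
      intro G hG hG0 l
      have := hmi G hG l
      simpa only [max_eq_left (hG0 _)] using this
    have hsplit : ∀ l x, (if 1 < 2 ^ (l + 1) * ‖F l x‖ then
        ENNReal.ofReal (φ (2 ^ (l + 1) * ‖F l x‖)) else 0) ≤
        (if 1 < 2 ^ (l + 1) * FA l x then ENNReal.ofReal (φ (2 ^ (l + 1) * FA l x)) else 0) +
        (if 1 < 2 ^ (l + 1) * FB l x then ENNReal.ofReal (φ (2 ^ (l + 1) * FB l x)) else 0) := by
      intro l x
      have h1 := hFle l x
      have h2 : (0 : ℝ) < 2 ^ (l + 1) := by positivity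
      split_ifs with h3 h4 h5 h5 <;> try exact zero_le
      all_goals
        rcases le_total (FA l x) (FB l x) with h6 | h6
      · refine le_add_left (ENNReal.ofReal_le_ofReal (hφ (Set.mem_Ici.2 (by positivity))
          (Set.mem_Ici.2 (mul_nonneg h2.le (hFB0 l x))) ?_))
        exact mul_le_mul_of_nonneg_left (by linarith) h2.le
      · refine le_add_right (ENNReal.ofReal_le_ofReal (hφ (Set.mem_Ici.2 (by positivity))
          (Set.mem_Ici.2 (mul_nonneg h2.le (hFA0 l x))) ?_))
        exact mul_le_mul_of_nonneg_left (by linarith) h2.le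
      · exfalso
        have : 2 ^ (l + 1) * FA l x ≤ 2 ^ (l + 1) * FB l x := mul_le_mul_of_nonneg_left h6 h2.le
        linarith
      · refine le_add_right (ENNReal.ofReal_le_ofReal (hφ (Set.mem_Ici.2 (by positivity))
          (Set.mem_Ici.2 (mul_nonneg h2.le (hFA0 l x))) ?_))
        exact mul_le_mul_of_nonneg_left (by linarith) h2.le
      · refine le_add_left (ENNReal.ofReal_le_ofReal (hφ (Set.mem_Ici.2 (by positivity))
          (Set.mem_Ici.2 (mul_nonneg h2.le (hFB0 l x))) ?_))
        exact mul_le_mul_of_nonneg_left (by linarith) h2.le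
      · exfalso
        have : 2 ^ (l + 1) * FB l x ≤ 2 ^ (l + 1) * FA l x := mul_le_mul_of_nonneg_left h6 h2.le
        linarith
      · exfalso
        have h7 : 2 ^ (l + 1) * ‖F l x‖ ≤ 2 ^ (l + 1) * FB l x :=
          mul_le_mul_of_nonneg_left (by linarith) h2.le
        linarith
      · exfalso
        have h7 : 2 ^ (l + 1) * ‖F l x‖ ≤ 2 ^ (l + 1) * FA l x :=
          mul_le_mul_of_nonneg_left (by linarith) h2.le
        linarith
    have htermA : ∀ l, ∫⁻ x in Set.Ioc 0 (2 * Real.pi),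
        (if 1 < 2 ^ (l + 1) * FA l x then ENNReal.ofReal (φ (2 ^ (l + 1) * FA l x)) else 0) ≤
          ENNReal.ofReal (2 * Real.pi) * ENNReal.ofReal ((1 / 2 : ℝ) ^ l) := by
      intro l
      have h1 := phi_term φ hφ hφ0 (A (η l)) (η l) (hA _ (hη l)) (hη l).le (hAg _ (hη l))
        (fun x => 2 ^ (l + 1) * FA l x) (continuous_const.mul (hFAc l))
        (fun x => mul_nonneg (by positivity) (hFA0 l x)) (2 ^ (l + 1) * a l * 2 ^ (C l * m l ^ 2))
        (fun x => by
          have := mul_le_mul_of_nonneg_left (hB l (KK N l * x)) (ha l).le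
          have h2 : FA l x = a l * (PS (α l) (M l) (KK N l * x)).re := rfl
          simp only [h2]
          rw [mul_assoc]
          exact mul_le_mul_of_nonneg_left this (by positivity))
      refine h1.trans ?_
      rw [← ENNReal.ofReal_mul (by positivity)]
      refine ENNReal.ofReal_le_ofReal ?_
      rw [intervalIntegral.integral_const_mul, hintA]
      have h3 := hpar l
      calc _ = 2 * Real.pi * (2 ^ (l + 1) * a l * (A (η l) + η l *
            Real.sqrt (Real.log (2 + 2 ^ (l + 1) * a l * 2 ^ (C l * m l ^ 2))))) := by ring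
        _ ≤ 2 * Real.pi * (1 / 2 : ℝ) ^ l := mul_le_mul_of_nonneg_left h3 (by positivity)
    have htermB : ∀ l, ∫⁻ x in Set.Ioc 0 (2 * Real.pi),
        (if 1 < 2 ^ (l + 1) * FB l x then ENNReal.ofReal (φ (2 ^ (l + 1) * FB l x)) else 0) ≤
          ENNReal.ofReal (2 * Real.pi) * ENNReal.ofReal ((1 / 2 : ℝ) ^ l) := by
      intro l
      have h1 := phi_term φ hφ hφ0 (A 1) 1 (hA _ one_pos) zero_le_one (hAg _ one_pos)
        (fun x => 2 ^ (l + 1) * FB l x) (continuous_const.mul (hFBc l))
        (fun x => mul_nonneg (by positivity) (hFB0 l x)) (2 ^ (l + 1) * (b l * 2))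
        (fun x => by
          have h2 : FB l x = b l * κ l * (PS (β l) (M' l) (KK N l * x)).re := rfl
          simp only [h2]
          refine mul_le_mul_of_nonneg_left ?_ (by positivity)
          rw [mul_assoc]
          exact mul_le_mul_of_nonneg_left (hβr l _).2.2 (hb0 l).le)
      refine h1.trans ?_
      rw [← ENNReal.ofReal_mul (by positivity)]
      refine ENNReal.ofReal_le_ofReal ?_
      rw [intervalIntegral.integral_const_mul, hintB]
      have h3 := hbκ l
      calc _ = 2 * Real.pi * (2 ^ (l + 1) * (b l * κ l) * W l) := by simp only [hW]; ring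
        _ ≤ 2 * Real.pi * (1 / 2 : ℝ) ^ l := mul_le_mul_of_nonneg_left h3 (by positivity)
    have hadd : ∀ l, Measurable fun x =>
        ((if 1 < 2 ^ (l + 1) * FA l x then ENNReal.ofReal (φ (2 ^ (l + 1) * FA l x)) else 0) +
        (if 1 < 2 ^ (l + 1) * FB l x then ENNReal.ofReal (φ (2 ^ (l + 1) * FB l x)) else 0)) :=
      fun l => (hmi' (FA l) (hFAc l) (hFA0 l) l).add (hmi' (FB l) (hFBc l) (hFB0 l) l)
    have hle : ∀ x, ENNReal.ofReal (φ ‖∑' l, F l x‖) ≤ ENNReal.ofReal (φ 1) +
        ∑' l, ((if 1 < 2 ^ (l + 1) * FA l x then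
          ENNReal.ofReal (φ (2 ^ (l + 1) * FA l x)) else 0) +
          (if 1 < 2 ^ (l + 1) * FB l x then
            ENNReal.ofReal (φ (2 ^ (l + 1) * FB l x)) else 0)) := by
      intro x
      have h1 : ‖∑' l, F l x‖ ≤ ∑' l, ‖F l x‖ := by
        by_cases hsx : Summable fun l => ‖F l x‖
        · exact norm_tsum_le_tsum_norm hsx
        · rw [tsum_eq_zero_of_not_summable (fun h => hsx (summable_norm_iff.2 h)), norm_zero]
          exact tsum_nonneg fun l => norm_nonneg _
      have h2 : ENNReal.ofReal (φ ‖∑' l, F l x‖) ≤ ENNReal.ofReal (φ (∑' l, ‖F l x‖)) :=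
        ENNReal.ofReal_le_ofReal (hφ (Set.mem_Ici.2 (norm_nonneg _))
          (Set.mem_Ici.2 (tsum_nonneg fun l => norm_nonneg _)) h1)
      refine h2.trans ((phi_tsum_le φ hφ hφ0 (fun l => ‖F l x‖) (fun l => norm_nonneg _)).trans ?_)
      gcongr with l
      exact hsplit l x
    calc ∫⁻ x in Set.Ioc 0 (2 * Real.pi), ENNReal.ofReal (φ ‖∑' l, F l x‖)
        ≤ ∫⁻ x in Set.Ioc 0 (2 * Real.pi), (ENNReal.ofReal (φ 1) + ∑' l,
          ((if 1 < 2 ^ (l + 1) * FA l x then
          ENNReal.ofReal (φ (2 ^ (l + 1) * FA l x)) else 0) +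
          (if 1 < 2 ^ (l + 1) * FB l x then
            ENNReal.ofReal (φ (2 ^ (l + 1) * FB l x)) else 0))) :=
          lintegral_mono fun x => hle x
      _ = ENNReal.ofReal (φ 1) * volume (Set.Ioc 0 (2 * Real.pi)) +
          ∑' l, ((∫⁻ x in Set.Ioc 0 (2 * Real.pi),
            (if 1 < 2 ^ (l + 1) * FA l x then
              ENNReal.ofReal (φ (2 ^ (l + 1) * FA l x)) else 0)) +
            (∫⁻ x in Set.Ioc 0 (2 * Real.pi),
            (if 1 < 2 ^ (l + 1) * FB l x then
              ENNReal.ofReal (φ (2 ^ (l + 1) * FB l x)) else 0))) := by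
          rw [lintegral_add_left measurable_const, setLIntegral_const,
            lintegral_tsum fun l => (hadd l).aemeasurable]
          congr 1
          refine tsum_congr fun l => ?_
          exact lintegral_add_left (hmi' (FA l) (hFAc l) (hFA0 l) l) _
      _ ≤ ENNReal.ofReal (φ 1) * volume (Set.Ioc 0 (2 * Real.pi)) +
          ∑' l : ℕ, (ENNReal.ofReal (2 * Real.pi) * ENNReal.ofReal ((1 / 2 : ℝ) ^ l) +
            ENNReal.ofReal (2 * Real.pi) * ENNReal.ofReal ((1 / 2 : ℝ) ^ l)) := by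
          gcongr with l
          · exact htermA l
          · exact htermB l
      _ < ⊤ := by
          refine ENNReal.add_lt_top.2 ⟨ENNReal.mul_lt_top ENNReal.ofReal_lt_top hfin.lt_top, ?_⟩
          rw [ENNReal.tsum_add, ENNReal.tsum_mul_left]
          have h1 : ENNReal.ofReal (2 * Real.pi) * ∑' l : ℕ, ENNReal.ofReal ((1 / 2 : ℝ) ^ l) < ⊤ := by
            refine ENNReal.mul_lt_top ENNReal.ofReal_lt_top ?_
            rw [← ENNReal.ofReal_tsum_of_nonneg (fun l => by positivity)
              (summable_geometric_of_lt_one (by norm_num) (by norm_num))]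
            exact ENNReal.ofReal_lt_top
          exact ENNReal.add_lt_top.2 ⟨h1, h1⟩
  · -- divergence at every point
    rintro ⟨R, hR⟩
    have hR' : ∀ n, ‖SC (fun x => ∑' l, F l x) n x‖ ≤ R := fun n => hR ⟨n, rfl⟩
    obtain ⟨l, hl⟩ := exists_nat_gt (2 * R + 1)
    have hdiff := diff_block γ N hγ (fun x => ∑' l, F l x) hS l
    set y : ℝ := KK N l * x with hy
    have hlow : ∀ n, n ≤ M l → PS (γ l) n y = ((a l / 2 : ℝ) : ℂ) * PS (α l) n y := fun n hn =>
      PS_gam_low (a l / 2) (b l * κ l / 2) (M l) (M' l) (α l) (β l) (hβ l) n hn y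
    have hMN : M l ≤ N l := by simp only [hN]; omega
    have hbound : ∀ n n', n ≤ N l → n' ≤ N l → ‖PS (γ l) n y - PS (γ l) n' y‖ ≤ 2 * R := by
      intro n n' hn hn'
      rw [← hdiff n n' hn hn' x]
      refine (norm_sub_le _ _).trans ?_
      have h1 := hR' (idx N l n)
      have h2 := hR' (idx N l n')
      linarith
    by_cases hcase : ∀ n : ℕ, 1 ≤ n → n ≤ M l → ‖PS (α l) n y‖ ≤ c l * m l / 2
    · have h1 := hβ1 l y hcase
      have h2 := hbound (N l) (M l) le_rfl hMN
      have h3 : PS (γ l) (N l) y = _ := PS_gam_full (a l / 2) (b l * κ l / 2) (M l) (M' l) (α l)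
        (β l) (hα l) (hβ l) y
      rw [h3, hlow (M l) le_rfl, add_sub_cancel_left, norm_mul, norm_mul, Complex.norm_real] at h2
      have h4 : ‖Complex.exp (((M l + M' l + 1 : ℕ) : ℂ) * (y : ℂ) * Complex.I)‖ = 1 := by
        have := Complex.norm_exp_ofReal_mul_I (((M l + M' l + 1 : ℕ) : ℝ) * y)
        rw [← this]
        congr 2
        push_cast; ring
      rw [h4, one_mul, hnr _ (hr' l _) (h0' l _),
        Real.norm_of_nonneg (by have := hb0 l; have := hκ0 l; positivity)] at h2
      have h5 : b l * κ l / 2 * (PS (β l) (M' l) y).re =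
          b l / 2 * (κ l * (PS (β l) (M' l) y).re) := by ring
      rw [h5] at h2
      have h6 : b l / 2 = (l : ℝ) + 1 := by simp only [hb]; ring
      rw [h6] at h2
      have h7 : ((l : ℝ) + 1) * 1 ≤ ((l : ℝ) + 1) * (κ l * (PS (β l) (M' l) y).re) :=
        mul_le_mul_of_nonneg_left h1 (by positivity)
      linarith
    · push Not at hcase
      obtain ⟨n, hn1, hn2, hn3⟩ := hcase
      have h2 := hbound n 0 (hn2.trans hMN) (Nat.zero_le _)
      rw [hlow n hn2, hlow 0 (Nat.zero_le _), PS_zero, hα0, mul_one] at h2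
      have h3 := norm_sub_norm_le (((a l / 2 : ℝ) : ℂ) * PS (α l) n y) ((a l / 2 : ℝ) : ℂ)
      rw [norm_mul, Complex.norm_real, Real.norm_of_nonneg (by have := ha l; positivity)] at h3
      have h4 : a l / 2 * (c l * m l / 2) ≤ a l / 2 * ‖PS (α l) n y‖ :=
        mul_le_mul_of_nonneg_left hn3.le (by have := ha l; positivity)
      have h5 : (l : ℝ) + 1 ≤ a l / 2 * (c l * m l / 2) := by
        refine (ham l).trans (le_of_eq ?_)
        ring
      have h6 : a l / 2 ≤ 1 := by
        have h7 := ha4 l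
        have h8 : (1 / 4 : ℝ) ^ (l + 1) ≤ 1 := pow_le_one₀ (by norm_num) (by norm_num)
        linarith
      linarith

end P091
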