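import Vale.Agent.Lib.P091.Defs

/-! # P091, everywhere divergence: definitions (complex functions) -/

open Finset

namespace P091

/-- Fourier coefficients of a complex function of period `2π`. -/
noncomputable def fcC (f : ℝ → ℂ) (k : ℤ) : ℂ :=
  (1 / (2 * Real.pi) : ℝ) * ∫ x in (0 : ℝ)..(2 * Real.pi), f x * Complex.exp (-(k * x * Complex.I))

/-- The symmetric partial sums of the Fourier series of a complex function. -/
noncomputable def SC (f : ℝ → ℂ) (N : ℕ) (x : ℝ) : ℂ :=
  ∑ k ∈ Icc (-(N : ℤ)) N, fcC f k * Complex.exp (k * x * Complex.I)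

/-- coefficients of `a F(y) + b e^{iKy} H(y)` -/
noncomputable def gam (a b : ℝ) (K : ℕ) (α β : ℤ → ℂ) (k : ℤ) : ℂ := a * α k + b * β (k - K)

end P091
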