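import Vale.Agent.Lib.P091.Defs

/-! # P091, everywhere divergence, module EvA: trigonometric approximation

Lift `h` to `C(AddCircle (2π), ℂ)` (`Function.Periodic.lift`, continuity by the quotient topology),
`span_fourier_closure_eq_top` gives a finite combination `T = ∑ c_n e^{inx}` with `|T x - h x| ≤ δ` for
all `x` (`fourier_coe_apply`).  Take `M` larger than all `|n|` with `c_n ≠ 0` and
`β k = (c_k + conj c_{-k}) / 2`: then `PS β M x = Re (T x)` (reflect the sum over `Icc (-M) M`). -/

open Finset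

namespace P091

private theorem EvA_exp (n : ℤ) (x : ℝ) :
    (@fourier (2 * Real.pi) n) (x : AddCircle (2 * Real.pi)) =
      Complex.exp (n * x * Complex.I) := by
  rw [fourier_coe_apply]
  congr 1
  have hpi : (Real.pi : ℂ) ≠ 0 := Complex.ofReal_ne_zero.mpr Real.pi_ne_zero
  push_cast
  field_simp

private theorem EvA_conj (n : ℤ) (x : ℝ) :
    (starRingEnd ℂ) (Complex.exp (n * x * Complex.I)) =
      Complex.exp ((-n : ℤ) * x * Complex.I) := by
  rw [← Complex.exp_conj]
  congr 1
  rw [map_mul, map_mul, Complex.conj_I, Complex.conj_ofReal, map_intCast]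
  push_cast
  ring

theorem weier (h : ℝ → ℝ) (hc : Continuous h) (hp : ∀ x, h (x + 2 * Real.pi) = h x) (δ : ℝ)
    (hδ : 0 < δ) : ∃ (M : ℕ) (β : ℤ → ℂ), (∀ k : ℤ, (M : ℤ) < |k| → β k = 0) ∧
      ∀ x, (PS β M x).im = 0 ∧ |(PS β M x).re - h x| ≤ δ := by
  have : Fact (0 < 2 * Real.pi) := ⟨Real.two_pi_pos⟩
  have hper : Function.Periodic (fun x : ℝ => (h x : ℂ)) (2 * Real.pi) := fun x => by
    show ((h (x + 2 * Real.pi) : ℝ) : ℂ) = (h x : ℂ)
    rw [hp]
  have hcont : Continuous (hper.lift : AddCircle (2 * Real.pi) → ℂ) := by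
    refine (QuotientAddGroup.isQuotientMap_mk
      (AddSubgroup.zmultiples (2 * Real.pi))).continuous_iff.mpr ?_
    exact Complex.continuous_ofReal.comp hc
  set h' : C(AddCircle (2 * Real.pi), ℂ) := ⟨hper.lift, hcont⟩ with hh'
  have hmem : h' ∈ (Submodule.span ℂ (Set.range (@fourier (2 * Real.pi)))).topologicalClosure := by
    rw [span_fourier_closure_eq_top]
    exact Submodule.mem_top
  have hmem' : h' ∈ closure
      ((Submodule.span ℂ (Set.range (@fourier (2 * Real.pi))) :
        Submodule ℂ C(AddCircle (2 * Real.pi), ℂ)) : Set C(AddCircle (2 * Real.pi), ℂ)) := hmem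
  obtain ⟨T, hT, hTd⟩ := Metric.mem_closure_iff.mp hmem' δ hδ
  obtain ⟨c, hcT⟩ := Finsupp.mem_span_range_iff_exists_finsupp.mp hT
  set M : ℕ := c.support.sup Int.natAbs with hM
  have hMc : ∀ k : ℤ, (M : ℤ) < |k| → c k = 0 := by
    intro k hk
    by_contra hne
    have h1 : k.natAbs ≤ M := Finset.le_sup (f := Int.natAbs) (Finsupp.mem_support_iff.mpr hne)
    have h2 : (|k| : ℤ) = k.natAbs := Int.abs_eq_natAbs k
    omega
  have hTx : ∀ x : ℝ, T (x : AddCircle (2 * Real.pi)) =
      ∑ k ∈ Icc (-(M : ℤ)) M, c k * Complex.exp (k * x * Complex.I) := by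
    intro x
    have h1 : T (x : AddCircle (2 * Real.pi)) = ∑ k ∈ c.support,
        c k * Complex.exp (k * x * Complex.I) := by
      rw [← hcT, Finsupp.sum, ContinuousMap.coe_sum, Finset.sum_apply]
      refine Finset.sum_congr rfl fun k _ => ?_
      rw [ContinuousMap.coe_smul, Pi.smul_apply, smul_eq_mul, EvA_exp]
    rw [h1]
    refine Finset.sum_subset ?_ ?_
    · intro k hk
      have h2 : k.natAbs ≤ M := Finset.le_sup (f := Int.natAbs) hk
      rw [Finset.mem_Icc]
      omega
    · intro k _ hk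
      rw [Finsupp.notMem_support_iff.mp hk, zero_mul]
  refine ⟨M, fun k => (c k + (starRingEnd ℂ) (c (-k))) / 2, ?_, ?_⟩
  · intro k hk
    show (c k + (starRingEnd ℂ) (c (-k))) / 2 = 0
    rw [hMc k hk, hMc (-k) (by rwa [abs_neg])]
    simp
  · intro x
    have hPS : PS (fun k => (c k + (starRingEnd ℂ) (c (-k))) / 2) M x =
        (((T (x : AddCircle (2 * Real.pi))).re : ℝ) : ℂ) := by
      have h1 : ∑ k ∈ Icc (-(M : ℤ)) M, (starRingEnd ℂ) (c (-k)) * Complex.exp (k * x * Complex.I)
          = (starRingEnd ℂ) (T (x : AddCircle (2 * Real.pi))) := by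
        rw [hTx x, map_sum]
        refine Finset.sum_nbij' (fun k => -k) (fun k => -k) ?_ ?_ ?_ ?_ ?_
        · intro k hk
          rw [Finset.mem_Icc] at hk ⊢
          omega
        · intro k hk
          rw [Finset.mem_Icc] at hk ⊢
          omega
        · intro k _
          exact neg_neg k
        · intro k _
          exact neg_neg k
        · intro k _
          rw [map_mul, EvA_conj, neg_neg]
      have h2 : PS (fun k => (c k + (starRingEnd ℂ) (c (-k))) / 2) M x =
          (∑ k ∈ Icc (-(M : ℤ)) M, c k * Complex.exp (k * x * Complex.I)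
            + ∑ k ∈ Icc (-(M : ℤ)) M,
              (starRingEnd ℂ) (c (-k)) * Complex.exp (k * x * Complex.I)) / 2 := by
        unfold PS
        rw [← Finset.sum_add_distrib, Finset.sum_div]
        refine Finset.sum_congr rfl fun k _ => ?_
        ring
      rw [h2, h1, ← hTx x, Complex.add_conj]
      push_cast
      ring
    rw [hPS]
    refine ⟨Complex.ofReal_im _, ?_⟩
    rw [Complex.ofReal_re]
    have h3 : ‖h' (x : AddCircle (2 * Real.pi)) - T (x : AddCircle (2 * Real.pi))‖ ≤ δ := by
      rw [← dist_eq_norm]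
      exact (ContinuousMap.dist_apply_le_dist _).trans hTd.le
    have h4 : h' (x : AddCircle (2 * Real.pi)) = (h x : ℂ) := rfl
    have h5 : |(h' (x : AddCircle (2 * Real.pi)) - T (x : AddCircle (2 * Real.pi))).re| ≤ δ :=
      (Complex.abs_re_le_norm _).trans h3
    rw [Complex.sub_re, h4, Complex.ofReal_re] at h5
    rw [abs_sub_comm]
    exact h5

end P091
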